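import Vale.Agent.P112.H213.Bk

/-!
# P112, [LL] (LL2): the gluing of the bands (DEC) is linear in the band bound

`dec_fixed_lin`: linear dependence on `B`, by scaling of the kernel. `dec_w`, `dec_band_w`: band
bounds `B w n` for `n` scales, `1 ≤ w n`, give `C w n` for the sum over all bands.
-/

set_option linter.unusedSectionVars false
set_option linter.unusedVariables false
set_option linter.style.haveILetI false

open MeasureTheory Set Filter Topology
open scoped ENNReal NNReal Interval ContDiff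

namespace Vale.Agent.P112.H587.LL

open Vale.Agent.P112 DEC

/-- scaling of the kernel -/
theorem bk_scale {K : ℝ → ℝ} {e : ℝ} {ψ : ℝ → ℝ} {B l : ℝ} (h : BK K e ψ B) (hl : 0 ≤ l) :
    BK (fun t => l * K t) e ψ (l * B) := by
  intro u hu F hF
  have h2 : TT (fun t => l * K t) u (cy ψ F) = fun z => l * TT K u (cy ψ F) z := by
    funext z; exact TT_const_mul_left _ _ _ _ _
  rw [h2, N_const_mul, abs_of_nonneg hl, mul_assoc]
  exact mul_le_mul_of_nonneg_left (h u hu F hF) hl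

theorem bk_mono {K : ℝ → ℝ} {e : ℝ} {ψ : ℝ → ℝ} {B B' : ℝ} (h : BK K e ψ B) (hB : B ≤ B') :
    BK K e ψ B' := fun u hu F hF =>
  (h u hu F hF).trans (mul_le_mul_of_nonneg_right hB (N_nonneg F))

theorem coreData_scale {K : ℝ → ℝ} {e : ℝ} {Ψ ψ : ℝ → ℝ} {B : ℝ} (c : CoreData K e Ψ ψ B) :
    CoreData (fun t => (1 + B)⁻¹ * K t) e Ψ ψ 1 := by
  have hB := c.B0
  have h1 : 0 < 1 + B := by linarith
  have hl : 0 ≤ (1 + B)⁻¹ := by positivity
  have hl1 : (1 + B)⁻¹ ≤ 1 := inv_le_one_of_one_le₀ (by linarith)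
  have hlB : (1 + B)⁻¹ * B ≤ 1 := by
    rw [inv_mul_le_iff₀ h1]; linarith
  exact
    { e0 := c.e0
      e1 := c.e1
      kok := ⟨continuous_const.mul c.kok.cont, fun t ht => by rw [c.kok.supp t ht, mul_zero]⟩
      kt := fun t => by
        have h2 : t * ((1 + B)⁻¹ * K t) = (1 + B)⁻¹ * (t * K t) := by ring
        rw [h2, abs_mul, abs_of_nonneg hl]
        calc (1 + B)⁻¹ * |t * K t| ≤ 1 * 1 :=
              mul_le_mul hl1 (c.kt t) (abs_nonneg _) zero_le_one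
          _ = 1 := one_mul 1
      B0 := zero_le_one
      cΨ := c.cΨ
      sΨ := c.sΨ
      cψ := c.cψ
      sψ := c.sψ
      dΨ := c.dΨ
      b1 := bk_mono (bk_scale c.b1 hl) hlB
      b2 := bk_mono (bk_scale c.b2 hl) hlB
      b3 := bk_mono (bk_scale c.b3 hl) hlB }

/-- the gluing theorem for a fixed kernel, linear in the band bound -/
theorem dec_fixed_lin {φ Ψ : ℝ → ℝ} (hs : ContDiff ℝ 1 φ) (hc : HasCompactSupport φ)
    (h1 : ∫ s, φ s = 1) (e : ℝ) : ∃ C : ℝ, 0 ≤ C ∧ ∀ (B : ℝ) (K : ℝ → ℝ),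
    CoreData K e Ψ (psi φ) B → ∀ u : ℝ × ℝ → ℝ, UOK e u → ∀ F : ℝ × ℝ → ℝ, CC2 F →
      N (TT K u F) ≤ C * (1 + B) * N F := by
  obtain ⟨C, hC, H⟩ := dec_fixed (Ψ := Ψ) hs hc h1 e 1
  refine ⟨C, hC, fun B K c u hu F hF => ?_⟩
  have hB := c.B0
  have h0 : 0 < 1 + B := by linarith
  have h2 := H _ (coreData_scale c) u hu F hF
  have h3 : TT (fun t => (1 + B)⁻¹ * K t) u F = fun z => (1 + B)⁻¹ * TT K u F z := by
    funext z; exact TT_const_mul_left _ _ _ _ _
  rw [h3, N_const_mul, abs_of_nonneg (by positivity : 0 ≤ (1 + B)⁻¹),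
    inv_mul_le_iff₀ h0] at h2
  linarith

/-- band bounds with a weight in the number of scales -/
def BKAllW (e : ℝ) (M : ℕ) (w : ℕ → ℝ) : Prop := ∀ K : ℝ → ℝ, ContDiff ℝ ∞ K →
  (∀ t, K (-t) = -K t) → (∀ t, 1 / 8 ≤ |t| → K t = 0) → ∀ Φ : ℝ → ℝ, ContDiff ℝ ∞ Φ →
  (∀ t, 1 ≤ |t| → Φ t = 0) → ∃ B : ℝ, 0 ≤ B ∧ ∀ n : ℕ,
    BK (fun t => ∑ j ∈ Finset.range n, 2 ^ j * K (2 ^ j * t)) e (iteratedDeriv M Φ) (B * w n)

/-- `BandBound` with a weight in the number of scales -/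
def BandBoundW (e : ℝ) (M : ℕ) (w : ℕ → ℝ) : Prop := ∀ κ : T.Ker M, ∃ B : ℝ, 0 ≤ B ∧
  ∀ u : ℝ × ℝ → ℝ, Continuous u → (∃ U, ∀ z, |u z| ≤ U) →
    (∀ x y y', |u (x, y) - u (x, y')| ≤ e * |y - y'|) →
    ∀ (n : ℕ) (F : ℝ × ℝ → ℝ), Continuous F → HasCompactSupport F →
      ∫ z, (∑ j ∈ Finset.range n, κ.T u j F z) ^ 2 ≤ (B * w n) ^ 2 * ∫ z, F z ^ 2

/-- **DEC with weights**: band bounds `B w n` (`n` = number of scales) give the bound `C w n`
with the tent pieces. -/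
theorem dec_w {e : ℝ} (he0 : 0 ≤ e) (he : e ≤ 1 / 2) {M : ℕ} {w : ℕ → ℝ} (hw : ∀ n, 1 ≤ w n)
    (h : BKAllW e M w) :
    ∃ C : ℝ, 0 ≤ C ∧ ∀ u : ℝ × ℝ → ℝ, UOK e u → ∀ (n : ℕ) (F : ℝ × ℝ → ℝ), CC2 F →
      N (TT (fun t => ∑ l ∈ Finset.range n, eta (sc l) t) u F) ≤ C * w n * N F := by
  obtain ⟨K, D, hK, hodd, hKs, hDc, ⟨m, hm⟩, hDs, hsum⟩ := ks
  obtain ⟨φ, X, hφ, hφs, hφ1, hX, hXs, hXd⟩ := kerm M
  have hm0 : 0 ≤ m := (abs_nonneg _).trans (hm 0)
  have hcs : ∀ f : ℝ → ℝ, (∀ t, 1 ≤ |t| → f t = 0) → HasCompactSupport f := fun f hf =>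
    HasCompactSupport.intro (K := Icc (-1) 1) isCompact_Icc fun t ht => hf t (by
      rw [mem_Icc, ← abs_le, not_le] at ht; exact ht.le)
  -- derivatives of `X`
  have hX1 : ContDiff ℝ ∞ (deriv X) := (contDiff_infty_iff_deriv.1 hX).2
  have hX2 : ContDiff ℝ ∞ (deriv (deriv X)) := (contDiff_infty_iff_deriv.1 hX1).2
  have hX1s := deriv_zero_of_supp hX hXs
  have hX2s := deriv_zero_of_supp hX1 hX1s
  have hit : ∀ n, ContDiff ℝ ∞ (iteratedDeriv n X) ∧ ∀ t, 1 ≤ |t| → iteratedDeriv n X t = 0 := by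
    intro n
    induction n with
    | zero => simpa using ⟨hX, hXs⟩
    | succ n ih =>
      rw [iteratedDeriv_succ]
      exact ⟨(contDiff_infty_iff_deriv.1 ih.1).2, deriv_zero_of_supp ih.1 ih.2⟩
  obtain ⟨B1, hB1, H1⟩ := h K hK hodd hKs X hX hXs
  obtain ⟨B2, hB2, H2⟩ := h K hK hodd hKs (deriv X) hX1 hX1s
  obtain ⟨B3, hB3, H3⟩ := h K hK hodd hKs (deriv (deriv X)) hX2 hX2s
  have e1 : psi φ = iteratedDeriv (M + 1) X := by
    funext s; rw [hXd s]; rfl
  have e2 : iteratedDeriv M (deriv X) = psi φ := by rw [e1, iteratedDeriv_succ']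
  have e3 : deriv (iteratedDeriv M X) = psi φ := by rw [e1, iteratedDeriv_succ]
  have e4 : iteratedDeriv M (deriv (deriv X)) = deriv (psi φ) := by
    rw [← e2, ← iteratedDeriv_succ, ← iteratedDeriv_succ']
  rw [e2] at H2
  rw [e4] at H3
  set B := B1 + B2 + B3 with hB
  obtain ⟨C, hC0, HC⟩ := dec_fixed_lin (Ψ := iteratedDeriv M X) (hφ.of_le (by norm_num))
    (hcs φ hφs) hφ1 e
  -- the normalised kernels
  set c : ℝ := 1 + 2 * m with hc
  have hc1 : 1 ≤ c := by rw [hc]; linarith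
  have hc0 : 0 < c := by linarith
  have hci : c⁻¹ ≤ 1 := inv_le_one_of_one_le₀ hc1
  have hci0 : 0 < c⁻¹ := inv_pos.2 hc0
  have hKn := fun n => KOK.of_ks hK hKs n
  have hbd : ∀ n t, |t * ∑ j ∈ Finset.range n, 2 ^ j * K (2 ^ j * t)| ≤ c := by
    intro n t
    have hD1 : ∀ t, |t * D t| ≤ m := by
      intro t
      by_cases ht : 1 ≤ |t|
      · rw [hDs t ht, mul_zero, abs_zero]; exact hm0
      · rw [abs_mul]
        calc |t| * |D t| ≤ 1 * m := mul_le_mul (not_le.1 ht).le (hm t) (abs_nonneg _) zero_le_one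
          _ = m := one_mul m
    have h1 := hD1 t
    have h2 := hD1 (2 ^ n * t)
    have h3 : |t * ∑ l ∈ Finset.range n, eta (sc l) t| ≤ 1 := by
      have h4 : t * ∑ l ∈ Finset.range n, eta (sc l) t = 
          if t = 0 then 0 else chi t - chi (2 ^ n * t) := by
        have h5 := sum_eta 0 n t
        have h6 : ∑ l ∈ Finset.range n, eta (sc l) t =
            ∑ l ∈ Finset.range n, eta ((1 / 2) ^ (0 + l)) t :=
          Finset.sum_congr rfl fun l _ => by rw [zero_add]; rfl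
        rw [h6, h5]
        split_ifs with h0
        · rw [h0, zero_mul]
        · rw [pow_zero, one_mul, zero_add]
          field_simp
      rw [h4]
      split_ifs
      · simp
      · rw [abs_le]
        have := chi_nonneg t
        have := chi_le_one t
        have := chi_nonneg (2 ^ n * t)
        have := chi_le_one (2 ^ n * t)
        constructor <;> linarith
    have h4 : t * ∑ j ∈ Finset.range n, 2 ^ j * K (2 ^ j * t) =
        t * ∑ l ∈ Finset.range n, eta (sc l) t + t * D t - (2 ^ n * t) * D (2 ^ n * t) := by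
      rw [hsum n t]; ring
    rw [h4]
    calc _ ≤ |t * ∑ l ∈ Finset.range n, eta (sc l) t + t * D t| + |(2 ^ n * t) * D (2 ^ n * t)| :=
          abs_sub _ _
      _ ≤ |t * ∑ l ∈ Finset.range n, eta (sc l) t| + |t * D t| + |(2 ^ n * t) * D (2 ^ n * t)| := by
          gcongr; exact abs_add_le _ _
      _ ≤ c := by rw [hc]; linarith
  have hw0 : ∀ n, 0 ≤ w n := fun n => zero_le_one.trans (hw n)
  have hBK : ∀ {ψ : ℝ → ℝ} {B' : ℝ}, 0 ≤ B' → B' ≤ B →
      (∀ n, BK (fun t => ∑ j ∈ Finset.range n, 2 ^ j * K (2 ^ j * t)) e ψ (B' * w n)) →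
      ∀ n, BK (fun t => c⁻¹ * ∑ j ∈ Finset.range n, 2 ^ j * K (2 ^ j * t)) e ψ (B * w n) := by
    intro ψ B' hB' hBB' H n u hu F hF
    have hBB : B' * w n ≤ B * w n := mul_le_mul_of_nonneg_right hBB' (hw0 n)
    have h1 := H n u hu F hF
    have h2 : TT (fun t => c⁻¹ * ∑ j ∈ Finset.range n, 2 ^ j * K (2 ^ j * t)) u (cy ψ F) =
        fun z => c⁻¹ * TT (fun t => ∑ j ∈ Finset.range n, 2 ^ j * K (2 ^ j * t)) u (cy ψ F) z := by
      funext z; exact TT_const_mul_left _ _ _ _ _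
    rw [h2, N_const_mul, abs_of_pos hci0]
    have h3 := N_nonneg (TT (fun t => ∑ j ∈ Finset.range n, 2 ^ j * K (2 ^ j * t)) u (cy ψ F))
    have h4 := mul_le_mul_of_nonneg_right hBB (N_nonneg F)
    have h5 := mul_le_mul_of_nonneg_right hci h3
    linarith
  have hcore : ∀ n, CoreData (fun t => c⁻¹ * ∑ j ∈ Finset.range n, 2 ^ j * K (2 ^ j * t)) e
      (iteratedDeriv M X) (psi φ) (B * w n) := by
    intro n
    have hψ := hit (M + 1)
    rw [← e1] at hψ
    exact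
      { e0 := he0
        e1 := he
        kok := ⟨continuous_const.mul (hKn n).cont, fun t ht => by rw [(hKn n).supp t ht, mul_zero]⟩
        kt := fun t => by
          have h1 : t * (c⁻¹ * ∑ j ∈ Finset.range n, 2 ^ j * K (2 ^ j * t)) =
              c⁻¹ * (t * ∑ j ∈ Finset.range n, 2 ^ j * K (2 ^ j * t)) := by ring
          rw [h1, abs_mul, abs_of_pos hci0]
          calc c⁻¹ * |t * ∑ j ∈ Finset.range n, 2 ^ j * K (2 ^ j * t)| ≤ c⁻¹ * c :=
                mul_le_mul_of_nonneg_left (hbd n t) hci0.le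
            _ = 1 := inv_mul_cancel₀ hc0.ne'
        B0 := mul_nonneg (by positivity) (hw0 n)
        cΨ := (hit M).1.of_le (by norm_num)
        sΨ := hcs _ (hit M).2
        cψ := hψ.1.of_le (by norm_num)
        sψ := hcs _ hψ.2
        dΨ := e3
        b1 := hBK hB1 (by linarith) H1 n
        b2 := hBK hB2 (by linarith) H2 n
        b3 := hBK hB3 (by linarith) H3 n }
  -- conclusion
  have hB0 : 0 ≤ B := by positivity
  refine ⟨c * (C * (1 + B)) + 3 * m + 2 * (2 * m), by positivity, fun u hu n F hF => ?_⟩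
  have hDk : KOK D := ⟨hDc, hDs⟩
  have hDn : KOK (fun t => -1 * (2 ^ n * D (2 ^ n * t))) := by
    refine ⟨by fun_prop, fun t ht => ?_⟩
    rw [hDs, mul_zero, mul_zero]
    rw [abs_mul, abs_of_pos (by positivity : (0 : ℝ) < 2 ^ n)]
    have : (1 : ℝ) ≤ 2 ^ n := one_le_pow₀ (by norm_num)
    nlinarith [abs_nonneg t]
  have hDn' : KOK (fun t => 2 ^ n * D (2 ^ n * t)) := by
    refine ⟨by fun_prop, fun t ht => ?_⟩
    have := hDn.supp t ht
    linarith
  have hDm : KOK (fun t => -1 * D t) :=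
    ⟨by fun_prop, fun t ht => by rw [hDs t ht, mul_zero]⟩
  have hT : TT (fun t => ∑ l ∈ Finset.range n, eta (sc l) t) u F = fun z =>
      (c * TT (fun t => c⁻¹ * ∑ j ∈ Finset.range n, 2 ^ j * K (2 ^ j * t)) u F z -
      TT D u F z) + TT (fun t => 2 ^ n * D (2 ^ n * t)) u F z := by
    funext z
    rw [TT_const_mul_left, ← mul_assoc, mul_inv_cancel₀ hc0.ne', one_mul]
    have h1 : (fun t => ∑ l ∈ Finset.range n, eta (sc l) t) = fun t =>
        (∑ j ∈ Finset.range n, 2 ^ j * K (2 ^ j * t) + -1 * D t) + 2 ^ n * D (2 ^ n * t) := by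
      funext t; rw [hsum n t]; ring
    rw [h1, TT_add_left ((hKn n).add hDm) hDn' u hF.bm,
      TT_add_left (hKn n) hDm u hF.bm, TT_const_mul_left]
    ring
  have b1 := HC _ _ (hcore n) u hu F hF
  have hkk := (hcore n).kok
  have t1 := (TT_supp hkk he hu hF).const_mul c
  have t2 := TT_supp hDk he hu hF
  have t3 := TT_supp hDn' he hu hF
  have b2 := N_TT_le hDk hm he hu hF
  have hmass : ∫ t, |2 ^ n * D (2 ^ n * t)| ≤ 2 * m := by
    have h2 : (0 : ℝ) < 2 ^ n := by positivity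
    have h3 : ∫ t, |2 ^ n * D (2 ^ n * t)| = ∫ t, |D t| := by
      simp only [abs_mul, abs_of_pos h2, integral_const_mul]
      rw [Measure.integral_comp_mul_left (fun s => |D s|), abs_of_pos (inv_pos.2 h2), smul_eq_mul,
        ← mul_assoc, mul_inv_cancel₀ h2.ne', one_mul]
    rw [h3]
    have h4 : ∫ t, |D t| = ∫ t in Icc (-1 : ℝ) 1, |D t| := by
      rw [setIntegral_eq_integral_of_forall_compl_eq_zero]
      intro t ht
      rw [mem_Icc, ← abs_le, not_le] at ht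
      rw [hDs t ht.le, abs_zero]
    rw [h4]
    have h5 := norm_setIntegral_le_of_norm_le_const (μ := volume) (s := Icc (-1 : ℝ) 1)
      (f := fun t => |D t|) (C := m) (by simp) (fun t _ => by
        rw [Real.norm_eq_abs, abs_abs]; exact hm t)
    have h6 : (volume : Measure ℝ).real (Icc (-1 : ℝ) 1) = 2 := by
      rw [Measure.real, Real.volume_Icc]; norm_num
    rw [h6] at h5
    have h7 := le_abs_self (∫ t in Icc (-1 : ℝ) 1, |D t|)
    rw [Real.norm_eq_abs] at h5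
    linarith
  have b3 := N_TT_le_mass hDn' hmass he hu hF
  rw [hT]
  have c1 := N_add_le (t1.sub t2).bm t3.bm
  have c2 := N_sub_le t1.bm t2.bm
  rw [N_const_mul, abs_of_pos hc0] at c2
  have b4 := mul_le_mul_of_nonneg_left b1 hc0.le
  have hN := N_nonneg F
  have hwn := hw n
  have b5 : C * (1 + B * w n) * N F ≤ C * (1 + B) * w n * N F := by
    refine mul_le_mul_of_nonneg_right ?_ hN
    rw [mul_assoc C (1 + B) (w n)]
    exact mul_le_mul_of_nonneg_left (by nlinarith) hC0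
  have b6 := mul_le_mul_of_nonneg_left b5 hc0.le
  have b7 : (3 * m + 2 * (2 * m)) * N F ≤ (3 * m + 2 * (2 * m)) * w n * N F := by
    have : (3 * m + 2 * (2 * m)) * w n * N F = (3 * m + 2 * (2 * m)) * N F * w n := by ring
    rw [this]
    exact le_mul_of_one_le_right (by positivity) hwn
  have b8 : (c * (C * (1 + B)) + 3 * m + 2 * (2 * m)) * w n * N F =
      c * (C * (1 + B) * w n * N F) + (3 * m + 2 * (2 * m)) * w n * N F := by ring
  rw [b8]
  linarith


theorem bkAllW_of_band {e : ℝ} (he : e ≤ 1 / 2) {M : ℕ} {w : ℕ → ℝ} (hw : ∀ n, 1 ≤ w n)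
    (h : BandBoundW e M w) : BKAllW e M w := by
  intro K hK hodd hKs Φ hΦ hΦs
  obtain ⟨B, hB, H⟩ := h ⟨K, Φ, hK, hodd, hKs, hΦ, hΦs⟩
  refine ⟨B, hB, fun n u hu F hF => ?_⟩
  have h1 := H u hu.cont hu.bdd hu.lip n F hF.1 hF.2
  set κ : T.Ker M := ⟨K, Φ, hK, hodd, hKs, hΦ, hΦs⟩ with hκ
  have hψ : Continuous κ.psi :=
    (κ.smoothΦ.of_le (m := (M : ℕ∞)) (by exact_mod_cast le_top)).continuous_iteratedDeriv M le_rfl
  have hψs : HasCompactSupport κ.psi := by
    have hit : ∀ n, ContDiff ℝ ∞ (iteratedDeriv n Φ) ∧ ∀ t, 1 ≤ |t| → iteratedDeriv n Φ t = 0 := by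
      intro n
      induction n with
      | zero => simpa using ⟨hΦ, hΦs⟩
      | succ n ih =>
        rw [iteratedDeriv_succ]
        exact ⟨(contDiff_infty_iff_deriv.1 ih.1).2, deriv_zero_of_supp ih.1 ih.2⟩
    exact HasCompactSupport.intro (K := Icc (-1) 1) isCompact_Icc fun t ht => (hit M).2 t (by
      rw [mem_Icc, ← abs_le, not_le] at ht; exact ht.le)
  have hc : CC2 (cy κ.psi F) := cy_CC2 ⟨hψ, hψs⟩ hF
  have hKj : ∀ j : ℕ, KOK (fun t => 2 ^ j * K (2 ^ j * t)) := by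
    intro j
    refine ⟨by have := hK.continuous; fun_prop, fun t ht => ?_⟩
    rw [hKs, mul_zero]
    rw [abs_mul, abs_of_pos (by positivity : (0 : ℝ) < 2 ^ j)]
    have : (1 : ℝ) ≤ 2 ^ j := one_le_pow₀ (by norm_num)
    nlinarith [abs_nonneg t]
  have h2 : ∀ n z, TT (fun t => ∑ j ∈ Finset.range n, 2 ^ j * K (2 ^ j * t)) u (cy κ.psi F) z =
      ∑ j ∈ Finset.range n, κ.T u j F z := by
    intro n z
    induction n with
    | zero => simp [TT]
    | succ n ih =>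
      rw [Finset.sum_range_succ, ← ih, ker_T_eq κ hF n z]
      simp only [Finset.sum_range_succ]
      exact TT_add_left (KOK.of_ks hK hKs n) (hKj n) u hc.bm z
  have h3 : N (TT (fun t => ∑ j ∈ Finset.range n, 2 ^ j * K (2 ^ j * t)) u (cy κ.psi F)) ^ 2 ≤
      (B * w n * N F) ^ 2 := by
    rw [N_sq, mul_pow, N_sq]
    simpa only [h2] using h1
  exact le_of_sq_le_sq h3 (mul_nonneg (mul_nonneg hB (zero_le_one.trans (hw n))) (N_nonneg F))


/-- **(LL2)** -/
theorem dec_band_w {e : ℝ} (he0 : 0 ≤ e) (he : e ≤ 1 / 2) {M : ℕ} {w : ℕ → ℝ} (hw : ∀ n, 1 ≤ w n)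
    (h : BandBoundW e M w) :
    ∃ C : ℝ, 0 ≤ C ∧ ∀ u : ℝ × ℝ → ℝ, UOK e u → ∀ (n : ℕ) (F : ℝ × ℝ → ℝ), CC2 F →
      N (TT (fun t => ∑ l ∈ Finset.range n, eta (sc l) t) u F) ≤ C * w n * N F :=
  dec_w he0 he hw (bkAllW_of_band he hw h)

end Vale.Agent.P112.H587.LL
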