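import Vale.Agent.P112.H587.LL.Trunc

/-! P112, fallback [LL], (LL3) part 3: the final form. -/

namespace Vale.Agent.P112.H587.LL

open MeasureTheory Filter Topology Set Vale.Agent.P112 Vale.Agent.P112.S408
open scoped ENNReal NNReal

/-- the weight `1 + log (n + 1)` -/
noncomputable def wl (n : ℕ) : ℝ := 1 + Real.log (n + 1)

lemma one_le_wl (n : ℕ) : 1 ≤ wl n := by
  unfold wl
  have : 0 ≤ Real.log ((n : ℝ) + 1) := Real.log_nonneg (by linarith [Nat.cast_nonneg (α := ℝ) n])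
  linarith

lemma wl_mono : Monotone wl := by
  intro a b hab
  unfold wl
  have h1 : (a : ℝ) ≤ b := by exact_mod_cast hab
  have h2 : (0 : ℝ) ≤ a := Nat.cast_nonneg a
  have := Real.log_le_log (by linarith : (0 : ℝ) < a + 1) (by linarith : (a : ℝ) + 1 ≤ b + 1)
  linarith

/-- The chain, for a general weight. -/
theorem trunc_of_bandW {e : ℝ≥0} (he0 : 0 < e) (he : (e : ℝ) ≤ 1 / 2) {M : ℕ} {w : ℕ → ℝ}
    (hw : ∀ n, 1 ≤ w n) (hm : Monotone w) (h : BandBoundW e M w) :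
    ∃ C : ℝ, 0 < C ∧ ∀ ε a : ℝ, 0 < ε → ε < a → a ≤ 1 → ∃ n : ℕ, (2 : ℝ) ^ n ≤ 128 * (a / ε) ∧
      ∀ v : Plane → Plane, LipschitzWith 1 v → (∀ x, ‖v x‖ = 1) → ∀ f : SchwartzMap Plane ℂ,
        ∫⁻ x, ‖truncHilbert v ε a f x‖ₑ ^ 2 ≤ ENNReal.ofReal (C * w n ^ 2 * ∫ x, ‖f x‖ ^ 2) := by
  obtain ⟨C, hC, h1⟩ := dec_band_w e.2 he hw h
  have hw0 : ∀ n, 0 ≤ w n := fun n => zero_le_one.trans (hw n)
  have h2 : GraphBoundB e (fun n => C * w n) :=
    graphBoundB_of he (fun n => mul_nonneg hC (hw0 n)) h1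
  obtain ⟨K, hK, h3⟩ := unif_of_graphB he0 (B := fun n => C * w n)
    (fun n => mul_nonneg hC (hw0 n)) (fun a b hab => mul_le_mul_of_nonneg_left (hm hab) hC) h2
  obtain ⟨C₂, hC₂, h4⟩ := trunc_of_unifB h3
  refine ⟨2 * (2 * (K + 6 * √(2 * C ^ 2 + 2048))) ^ 2 + C₂, by positivity, ?_⟩
  intro ε a hε hεa ha1
  obtain ⟨n, hn, h5⟩ := h4 ε a hε hεa ha1
  refine ⟨n, hn, fun v hvl hvu f => (h5 v hvl hvu f).trans ?_⟩
  apply ENNReal.ofReal_le_ofReal
  have hI : 0 ≤ ∫ x, ‖f x‖ ^ 2 := integral_nonneg fun x => by positivity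
  refine mul_le_mul_of_nonneg_right ?_ hI
  have e1 : √(2 * (C * w n) ^ 2 + 2048) ≤ √(2 * C ^ 2 + 2048) * w n := by
    rw [← Real.sqrt_sq (hw0 n), ← Real.sqrt_mul (by positivity), Real.sqrt_sq (hw0 n)]
    apply Real.sqrt_le_sqrt
    have : 1 ≤ w n ^ 2 := one_le_pow₀ (hw n)
    nlinarith
  have e2 : 2 * (K + 6 * √(2 * (C * w n) ^ 2 + 2048)) ≤
      2 * (K + 6 * √(2 * C ^ 2 + 2048)) * w n := by
    have : K ≤ K * w n := le_mul_of_one_le_right hK (hw n)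
    nlinarith
  have e3 : (2 * (K + 6 * √(2 * (C * w n) ^ 2 + 2048))) ^ 2 ≤
      (2 * (K + 6 * √(2 * C ^ 2 + 2048)) * w n) ^ 2 := by
    apply pow_le_pow_left₀ (by positivity) e2
  have e4 : C₂ ≤ C₂ * w n ^ 2 := le_mul_of_one_le_right hC₂.le (one_le_pow₀ (hw n))
  rw [mul_pow] at e3
  nlinarith

lemma wl_le {n : ℕ} {y : ℝ} (hy : 1 ≤ y) (hn : (2 : ℝ) ^ n ≤ 128 * y) :
    wl n ≤ 4 * (1 + Real.log (1 + Real.log y)) := by
  have hl : 0 ≤ Real.log y := Real.log_nonneg hy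
  have h2 : (0.69 : ℝ) < Real.log 2 := by linarith [Real.log_two_gt_d9]
  have h1 : (n : ℝ) * Real.log 2 ≤ 7 * Real.log 2 + Real.log y := by
    have := Real.log_le_log (by positivity) hn
    rw [Real.log_pow, Real.log_mul (by norm_num) (by linarith)] at this
    have e : Real.log 128 = 7 * Real.log 2 := by
      rw [show (128 : ℝ) = 2 ^ 7 by norm_num, Real.log_pow]; norm_num
    rw [e] at this
    exact this
  have h3 : (n : ℝ) + 1 ≤ 8 * (1 + Real.log y) := by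
    by_contra hcon
    push Not at hcon
    nlinarith
  have h4 : Real.log ((n : ℝ) + 1) ≤ Real.log 8 + Real.log (1 + Real.log y) := by
    rw [← Real.log_mul (by norm_num) (by linarith)]
    exact Real.log_le_log (by positivity) h3
  have h5 : Real.log 8 ≤ 3 := by
    rw [show (8 : ℝ) = 2 ^ 3 by norm_num, Real.log_pow]
    have := Real.log_two_lt_d9
    norm_num
    linarith
  have h6 : 0 ≤ Real.log (1 + Real.log y) := Real.log_nonneg (by linarith)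
  unfold wl
  linarith

/-- **The `log log` bound** for the truncated transforms, from the bound of one vertical band
with the weight `1 + log (n + 1)`. -/
theorem loglog_of_band {e : ℝ≥0} (he0 : 0 < e) (he : (e : ℝ) ≤ 1 / 2) {M : ℕ}
    (h : BandBoundW e M (fun n => 1 + Real.log (n + 1))) :
    ∃ C : ℝ, 0 < C ∧ ∀ v : Plane → Plane, (∀ x, ‖v x‖ = 1) → LipschitzWith 1 v →
      ∀ ε a : ℝ, 0 < ε → ε < a → a ≤ 1 → ∀ f : SchwartzMap Plane ℂ,
        ∫⁻ x, ‖truncHilbert v ε a f x‖ₑ ^ 2 ≤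
          ENNReal.ofReal (C * (1 + Real.log (1 + Real.log (a / ε))) ^ 2 * ∫ x, ‖f x‖ ^ 2) := by
  obtain ⟨C, hC, h1⟩ := trunc_of_bandW he0 he (w := wl) one_le_wl wl_mono h
  refine ⟨16 * C, by positivity, ?_⟩
  intro v hvu hvl ε a hε hεa ha1 f
  obtain ⟨n, hn, h2⟩ := h1 ε a hε hεa ha1
  refine (h2 v hvl hvu f).trans (ENNReal.ofReal_le_ofReal ?_)
  have hI : 0 ≤ ∫ x, ‖f x‖ ^ 2 := integral_nonneg fun x => by positivity
  refine mul_le_mul_of_nonneg_right ?_ hI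
  have h3 := wl_le (one_le_div hε |>.2 hεa.le) hn
  have h4 := one_le_wl n
  have h5 : wl n ^ 2 ≤ (4 * (1 + Real.log (1 + Real.log (a / ε)))) ^ 2 :=
    pow_le_pow_left₀ (by linarith) h3 2
  calc C * wl n ^ 2 ≤ C * (4 * (1 + Real.log (1 + Real.log (a / ε)))) ^ 2 := by gcongr
    _ = 16 * C * (1 + Real.log (1 + Real.log (a / ε))) ^ 2 := by ring

end Vale.Agent.P112.H587.LL
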