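import Vale.Agent.P112.H587.LL.Out

/-! P112, fallback [LL], (LL3) part 4: the final form with the weight `√(1 + log (n + 1))`. -/

namespace Vale.Agent.P112.H587.LL

open MeasureTheory Filter Topology Set Vale.Agent.P112 Vale.Agent.P112.S408
open scoped ENNReal NNReal

/-- **The `log log` bound** for the truncated transforms, from the bound of one vertical band
with the weight `√(1 + log (n + 1))`. -/
theorem loglog_of_sqrt {e : ℝ≥0} (he0 : 0 < e) (he : (e : ℝ) ≤ 1 / 2) {M : ℕ}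
    (h : BandBoundW e M (fun n => √(1 + Real.log (n + 1)))) :
    ∃ C : ℝ, 0 < C ∧ ∀ v : Plane → Plane, (∀ x, ‖v x‖ = 1) → LipschitzWith 1 v →
      ∀ ε a : ℝ, 0 < ε → ε < a → a ≤ 1 → ∀ f : SchwartzMap Plane ℂ,
        ∫⁻ x, ‖truncHilbert v ε a f x‖ₑ ^ 2 ≤
          ENNReal.ofReal (C * (1 + Real.log (1 + Real.log (a / ε))) * ∫ x, ‖f x‖ ^ 2) := by
  obtain ⟨C, hC, h1⟩ := trunc_of_bandW he0 he (w := fun n => √(wl n))
    (fun n => Real.one_le_sqrt.2 (one_le_wl n))
    (fun a b hab => Real.sqrt_le_sqrt (wl_mono hab)) h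
  refine ⟨4 * C, by positivity, ?_⟩
  intro v hvu hvl ε a hε hεa ha1 f
  obtain ⟨n, hn, h2⟩ := h1 ε a hε hεa ha1
  refine (h2 v hvl hvu f).trans (ENNReal.ofReal_le_ofReal ?_)
  have hI : 0 ≤ ∫ x, ‖f x‖ ^ 2 := integral_nonneg fun x => by positivity
  refine mul_le_mul_of_nonneg_right ?_ hI
  have h3 := wl_le (one_le_div hε |>.2 hεa.le) hn
  have h4 := one_le_wl n
  rw [Real.sq_sqrt (by linarith)]
  calc C * wl n ≤ C * (4 * (1 + Real.log (1 + Real.log (a / ε)))) := by gcongr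
    _ = 4 * C * (1 + Real.log (1 + Real.log (a / ε))) := by ring

end Vale.Agent.P112.H587.LL
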