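import Vale.Agent.P112.S408.Link
import Vale.Agent.P112.S408.Unit
import Vale.Agent.P112.ST.Local
import Vale.Agent.P112.H587.LL.Dec

set_option linter.all false

/-! P112, fallback [LL], (LL3) part 1: the outer chain with a constant `B n` depending on the number
`n` of dyadic scales. Copies of the arguments of `S408/{Link, Graph, Unit}` and `ST/{Local, Outer}`
with the constant `C` replaced by `B n`. -/

attribute [local instance] Vale.Agent.P112.SC.i0 Vale.Agent.P112.SC.i1 Vale.Agent.P112.SC.i2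
  Vale.Agent.P112.SC.i3 Vale.Agent.P112.SC.i4 Vale.Agent.P112.SC.i5 Vale.Agent.P112.SC.i6
  Vale.Agent.P112.SC.i7

namespace Vale.Agent.P112.H587.LL

open MeasureTheory Filter Topology Set Vale.Agent.P112 Vale.Agent.P112.S408
open scoped ENNReal NNReal RealInnerProductSpace

/-- The graph form of the bound, with a constant `B n` for `n` scales. -/
def GraphBoundB (ε₀ : ℝ≥0) (B : ℕ → ℝ) : Prop :=
  ∀ u : ℝ × ℝ → ℝ, LipschitzWith ε₀ u → (∀ p, |u p| ≤ ε₀) →
    ∀ n : ℕ, ∀ F : ℝ × ℝ → ℝ, Continuous F → HasCompactSupport F →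
    ∫⁻ p : ℝ × ℝ, ‖∑ l ∈ Finset.range n,
        ∫ t : ℝ, eta (sc l) t * F (p.1 - t, p.2 - t * u p)‖ₑ ^ 2 ≤
      ENNReal.ofReal (B n ^ 2) * ∫⁻ p : ℝ × ℝ, ‖F p‖ₑ ^ 2

/-- The bound for unit fields with small variation of the direction. -/
def UnitGraphB (m : ℕ) (B : ℕ → ℝ) : Prop :=
  ∀ e : Plane, ‖e‖ = 1 → ∀ w : Plane → Plane, LipschitzWith 1 w → (∀ x, ‖w x‖ = 1) →
    (∀ x, 9 / 10 ≤ inner ℝ (w x) e) → ∀ l0 n : ℕ, m ≤ l0 → ∀ F : Plane → ℝ, CC F →
      sqn (∑ l ∈ Finset.range n, Tp w (sc (l0 + l)) F) ≤ ENNReal.ofReal (B n ^ 2) * sqn F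

/-- The bound for functions supported in a ball of radius `2 * 2 ^ (-m)`. -/
def UnifLocB (m : ℕ) (B : ℕ → ℝ) : Prop :=
  ∀ v : Plane → Plane, LipschitzWith 1 v → (∀ x, ‖v x‖ = 1) → ∀ l0 n : ℕ, m ≤ l0 →
    ∀ (c : Plane) (F : Plane → ℝ), CC F → (∀ x, F x ≠ 0 → ‖x - c‖ ≤ 2 * sc m) →
      sqn (∑ l ∈ Finset.range n, Tp v (sc (l0 + l)) F) ≤ ENNReal.ofReal (B n ^ 2) * sqn F

/-- The bound for the sums of `n` pieces of length at most `2 ^ (-m)`. -/
def UnifFromB (m : ℕ) (B : ℕ → ℝ) : Prop :=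
  ∀ v : Plane → Plane, LipschitzWith 1 v → (∀ x, ‖v x‖ = 1) → ∀ l0 n : ℕ, m ≤ l0 →
    ∀ F : Plane → ℝ, CC F →
      sqn (∑ l ∈ Finset.range n, Tp v (sc (l0 + l)) F) ≤ ENNReal.ofReal (B n ^ 2) * sqn F

section link
open Vale.Agent.P112.DEC
theorem graphBoundB_of {ε₀ : ℝ≥0} (he : (ε₀ : ℝ) ≤ 1 / 2) {B : ℕ → ℝ} (hB : ∀ n, 0 ≤ B n)
    (h : ∀ u : ℝ × ℝ → ℝ, UOK ε₀ u → ∀ (n : ℕ) (F : ℝ × ℝ → ℝ), CC2 F →
      N (TT (etas n) u F) ≤ B n * N F) : GraphBoundB ε₀ B := by
  intro u hul hub n F hFc hFs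
  have hBn := hB n
  have hu : UOK ε₀ u := by
    refine ⟨hul.continuous, ⟨ε₀, hub⟩, fun x y y' => ?_⟩
    have h1 := hul.dist_le_mul (x, y) (x, y')
    rw [Real.dist_eq, Prod.dist_eq] at h1
    simpa [Real.dist_eq] using h1
  have hF : CC2 F := ⟨hFc, hFs⟩
  have hT : CC2 (TT (etas n) u F) := TT_supp (kok_etas n) he hu hF
  have hmain := h u hu n F hF
  have hN : N (TT (etas n) u F) ^ 2 ≤ (B n) ^ 2 * N F ^ 2 := by
    rw [← mul_pow]
    exact pow_le_pow_left₀ (N_nonneg _) hmain 2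
  have e1 : ∀ p : ℝ × ℝ, ∑ l ∈ Finset.range n, ∫ t : ℝ, eta (sc l) t * F (p.1 - t, p.2 - t * u p) =
      TT (etas n) u F p := by
    intro p
    unfold TT etas
    rw [← integral_finsetSum]
    · refine integral_congr_ae (Eventually.of_forall fun t => ?_)
      simp only
      rw [Finset.sum_mul]
    · intro l _
      apply Continuous.integrable_of_hasCompactSupport
      · exact (continuous_eta (sc_pos l)).mul (hFc.comp (by fun_prop))
      · apply HasCompactSupport.mul_right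
        refine HasCompactSupport.intro (isCompact_Icc (a := -sc l) (b := sc l)) fun t ht => ?_
        by_contra hne
        have h := eta_supp (sc_pos l) hne
        apply ht
        rw [mem_Icc, ← abs_le]
        exact h.2.le
  simp only [e1]
  rw [← N_lint hT.bm, ← N_lint hF.bm, ← ENNReal.ofReal_mul (by positivity)]
  exact ENNReal.ofReal_le_ofReal hN


end link

/-- The graph bound gives the bound for the fields `e + u e^⊥` at small scales. -/
theorem planeGraphB {ε₀ : ℝ≥0} (hε : 0 < ε₀) {B : ℕ → ℝ} (h : GraphBoundB ε₀ B) :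
    ∃ m : ℕ, ∀ b : OrthonormalBasis (Fin 2) ℝ Plane, ∀ u : Plane → ℝ,
      LipschitzWith 2 u → (∀ x, |u x| ≤ 1) → ∀ l0 n : ℕ, m ≤ l0 → ∀ F, CC F →
      sqn (∑ l ∈ Finset.range n, Tp (gf b u) (sc (l0 + l)) F) ≤
        ENNReal.ofReal (B n ^ 2) * sqn F := by
  obtain ⟨m, hm⟩ := exists_pow_lt_of_lt_one (show (0 : ℝ) < ε₀ / 4 by positivity)
    (show (1 / 2 : ℝ) < 1 by norm_num)
  refine ⟨m, ?_⟩
  intro b u hul hub l0 n hl0 F hF
  have hs : 0 < sc l0 := sc_pos l0
  have hs4 : 4 * sc l0 ≤ ε₀ := by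
    have h1 : sc l0 ≤ sc m := sc_mono hl0
    have h2 : sc m < ε₀ / 4 := hm
    linarith
  set s := sc l0 with hsdef
  have hΨc : Continuous (fun p : ℝ × ℝ => cmb b (s * p.1, p.2)) :=
    (continuous_cmb b).comp (by fun_prop)
  have hul' : LipschitzWith ε₀ (fun p : ℝ × ℝ => s * u (cmb b (s * p.1, p.2))) := by
    refine LipschitzWith.of_dist_le_mul fun p q => ?_
    have h1 := hul.dist_le_mul (cmb b (s * p.1, p.2)) (cmb b (s * q.1, q.2))
    rw [dist_eq_norm (cmb b _), cmb_sub] at h1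
    have h2 := norm_cmb_le b ((s * p.1, p.2) - (s * q.1, q.2))
    simp only [Prod.mk_sub_mk] at h2
    have h3 : |p.1 - q.1| ≤ dist p q := by
      rw [← Real.dist_eq]; exact le_max_left _ _
    have h4 : |p.2 - q.2| ≤ dist p q := by
      rw [← Real.dist_eq]; exact le_max_right _ _
    have hd : 0 ≤ dist p q := dist_nonneg
    have h5 : |s * p.1 - s * q.1| ≤ dist p q := by
      rw [← mul_sub, abs_mul, abs_of_pos hs]
      have : s ≤ 1 := by
        rw [hsdef]; unfold sc; exact pow_le_one₀ (by norm_num) (by norm_num)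
      nlinarith [abs_nonneg (p.1 - q.1)]
    rw [Real.dist_eq, ← mul_sub, abs_mul, abs_of_pos hs]
    rw [Real.dist_eq] at h1
    have h6 : ((2 : ℝ≥0) : ℝ) = 2 := rfl
    rw [h6] at h1
    have h7 : |u (cmb b (s * p.1, p.2)) - u (cmb b (s * q.1, q.2))| ≤ 4 * dist p q := by
      simp only [Prod.mk_sub_mk] at h1
      linarith
    calc s * |u (cmb b (s * p.1, p.2)) - u (cmb b (s * q.1, q.2))| ≤ s * (4 * dist p q) := by
          gcongr
      _ = (4 * s) * dist p q := by ring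
      _ ≤ ε₀ * dist p q := by gcongr
  have hub' : ∀ p : ℝ × ℝ, |s * u (cmb b (s * p.1, p.2))| ≤ ε₀ := by
    intro p
    rw [abs_mul, abs_of_pos hs]
    have := hub (cmb b (s * p.1, p.2))
    nlinarith
  have hFc : Continuous (fun p : ℝ × ℝ => F (cmb b (s * p.1, p.2))) := hF.1.comp hΨc
  have hFs : HasCompactSupport (fun p : ℝ × ℝ => F (cmb b (s * p.1, p.2))) := by
    have hK : IsCompact ((fun z : Plane => (s⁻¹ * ⟪b 0, z⟫, ⟪b 1, z⟫)) '' tsupport F) :=
      IsCompact.image hF.2 (by fun_prop)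
    refine HasCompactSupport.intro hK fun p hp => ?_
    by_contra hne
    apply hp
    refine ⟨cmb b (s * p.1, p.2), subset_tsupport _ hne, ?_⟩
    simp only
    rw [inner_cmb0, inner_cmb1, ← mul_assoc, inv_mul_cancel₀ hs.ne', one_mul]
  have hmain := h _ hul' hub' n _ hFc hFs
  have hmeas : Measurable (∑ l ∈ Finset.range n, Tp (gf b u) (sc (l0 + l)) F) :=
    final_measurable_sum (continuous_gf b hul.continuous) hF.1 l0 n
  have hL : sqn (∑ l ∈ Finset.range n, Tp (gf b u) (sc (l0 + l)) F) =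
      ENNReal.ofReal s * ∫⁻ p : ℝ × ℝ, ‖∑ l ∈ Finset.range n,
        ∫ t : ℝ, eta (sc l) t * F (cmb b (s * (p.1 - t),
          p.2 - t * (s * u (cmb b (s * p.1, p.2)))))‖ₑ ^ 2 := by
    unfold sqn
    rw [lintegral_cs b s hs _ (hmeas.enorm.pow_const 2)]
    congr 1
    refine lintegral_congr fun p => ?_
    congr 2
    rw [Finset.sum_apply]
    refine Finset.sum_congr rfl fun l _ => ?_
    unfold Tp
    rw [sc_add, ← hsdef, integral_eta_scale hs]
    refine integral_congr_ae (Eventually.of_forall fun t => ?_)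
    simp only
    congr 2
    unfold cmb gf
    simp only [smul_add, sub_smul, mul_sub, smul_smul]
    have h1 : ∀ a : ℝ, s * t * a = t * (s * a) := fun a => by ring
    rw [← h1]
    abel
  have hR : sqn F = ENNReal.ofReal s * ∫⁻ p : ℝ × ℝ, ‖F (cmb b (s * p.1, p.2))‖ₑ ^ 2 := by
    unfold sqn
    have hm : Measurable (fun z : Plane => ‖F z‖ₑ ^ 2) := hF.1.measurable.enorm.pow_const 2
    rw [lintegral_cs b s hs _ hm]
  rw [hL, hR, ← mul_assoc, mul_comm (ENNReal.ofReal (B n ^ 2)), mul_assoc]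
  gcongr


/-- The graph bound gives the uniform bound for the unit fields close to a fixed direction. -/
theorem unitGraphB_of_graphBoundB {ε₀ : ℝ≥0} (hε : 0 < ε₀) {D : ℕ → ℝ} (h : GraphBoundB ε₀ D) :
    ∃ (m : ℕ), UnitGraphB m (fun n => √(2 * D n ^ 2 + 2048)) := by
  obtain ⟨m, h⟩ := planeGraphB hε h
  refine ⟨m + 3, ?_⟩
  intro e he w hwl hwu hwe l0 n hl0 F hF
  set C : ℝ := D n with hCdef
  rw [Real.sq_sqrt (by positivity)]
  obtain ⟨b, hb⟩ := far_exists_basis e he
  -- coordinates of `w`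
  set A : Plane → ℝ := fun x => ⟪b 0, w x⟫ with hA
  set B : Plane → ℝ := fun x => ⟪b 1, w x⟫ with hB
  have hA9 : ∀ x, 9 / 10 ≤ A x := by
    intro x
    have := hwe x
    rw [real_inner_comm] at this
    rw [hA]; simp only; rw [hb]; exact this
  have hw : ∀ x, A x • b 0 + B x • b 1 = w x := fun x => cmb_inner b (w x)
  have hAB : ∀ x, A x ^ 2 + B x ^ 2 = 1 := by
    intro x
    have h1 := b.sum_sq_norm_inner_right (w x)
    rw [Fin.sum_univ_two, hwu x] at h1
    rw [Real.norm_eq_abs, Real.norm_eq_abs, sq_abs, sq_abs] at h1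
    rw [h1]; norm_num
  have hA1 : ∀ x, A x ≤ 1 := fun x => by nlinarith [hAB x, hA9 x, sq_nonneg (B x)]
  have hB1 : ∀ x, |B x| ≤ 9 / 20 := by
    intro x
    apply abs_le_of_sq_le_sq _ (by norm_num)
    nlinarith [hAB x, hA9 x]
  have hAl : ∀ x y, |A x - A y| ≤ ‖x - y‖ := by
    intro x y
    have h1 : A x - A y = ⟪b 0, w x - w y⟫ := by rw [inner_sub_right]
    rw [h1]
    have h2 := abs_real_inner_le_norm (b 0) (w x - w y)
    rw [b.norm_eq_one, one_mul] at h2
    have h3 := hwl.dist_le_mul x y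
    rw [dist_eq_norm, dist_eq_norm] at h3
    simp only [NNReal.coe_one, one_mul] at h3
    exact h2.trans h3
  have hBl : ∀ x y, |B x - B y| ≤ ‖x - y‖ := by
    intro x y
    have h1 : B x - B y = ⟪b 1, w x - w y⟫ := by rw [inner_sub_right]
    rw [h1]
    have h2 := abs_real_inner_le_norm (b 1) (w x - w y)
    rw [b.norm_eq_one, one_mul] at h2
    have h3 := hwl.dist_le_mul x y
    rw [dist_eq_norm, dist_eq_norm] at h3
    simp only [NNReal.coe_one, one_mul] at h3
    exact h2.trans h3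
  set u : Plane → ℝ := fun x => B x / A x with hu
  have hApos : ∀ x, 0 < A x := fun x => by linarith [hA9 x]
  have hub : ∀ x, |u x| ≤ 1 / 2 := by
    intro x
    rw [hu]; simp only
    rw [abs_div, abs_of_pos (hApos x), div_le_iff₀ (hApos x)]
    linarith [hB1 x, hA9 x]
  have hul : LipschitzWith 2 u := by
    refine LipschitzWith.of_dist_le_mul fun x y => ?_
    rw [Real.dist_eq, dist_eq_norm]
    have h5 : ((2 : ℝ≥0) : ℝ) = 2 := rfl
    rw [h5]
    have h1 : u x - u y = (B x - B y) / A x - u y * (A x - A y) / A x := by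
      rw [hu]; simp only
      have := (hApos x).ne'
      have := (hApos y).ne'
      field_simp
      ring
    rw [h1]
    refine (abs_sub _ _).trans ?_
    rw [abs_div, abs_div, abs_mul, abs_of_pos (hApos x), ← add_div, div_le_iff₀ (hApos x)]
    have h2 := hub y
    have h3 := hAl x y
    have h4 := hBl x y
    have h6 := hA9 x
    have h7 := norm_nonneg (x - y)
    nlinarith [abs_nonneg (A x - A y), abs_nonneg (u y)]
  have hwg : ∀ x, w x = A x • gf b u x := by
    intro x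
    unfold gf
    rw [smul_add, smul_smul, hu]
    simp only
    rw [mul_div_cancel₀ _ (hApos x).ne', hw x]
  have hg2 : LipschitzWith 2 (gf b u) := by
    refine LipschitzWith.of_dist_le_mul fun x y => ?_
    have h1 := hul.dist_le_mul x y
    rw [dist_eq_norm]
    have h2 : gf b u x - gf b u y = (u x - u y) • b 1 := by
      unfold gf; rw [sub_smul]; abel
    rw [h2, norm_smul, b.norm_eq_one, mul_one]
    exact h1
  have hlo : m ≤ l0 := by omega
  have hmain := h b u hul (fun x => (hub x).trans (by norm_num)) l0 n hlo F hF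
  have h8 : (8 : ℝ) ≤ 2 ^ l0 := by
    calc (8 : ℝ) = 2 ^ 3 := by norm_num
      _ ≤ 2 ^ l0 := pow_le_pow_right₀ (by norm_num) (by omega)
  have h8' : (8 : ℝ) ≤ 2 ^ (l0 + n) :=
    h8.trans (pow_le_pow_right₀ (by norm_num) (by omega))
  have ha1 := box_avg hg2 h8 F hF.1
  have ha2 := box_avg hg2 h8' F hF.1
  have hgc := hg2.continuous
  have hm1 : Measurable (∑ l ∈ Finset.range n, Tp (gf b u) (sc (l0 + l)) F) :=
    final_measurable_sum (continuous_gf b hul.continuous) hF.1 l0 n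
  have hFg : Measurable (fun p : Plane × ℝ => ‖F (p.1 - p.2 • gf b u p.1)‖ₑ) := by
    apply Measurable.enorm
    apply Continuous.measurable
    exact hF.1.comp (by fun_prop)
  have hm2 : ∀ N : ℝ, Measurable (fun x => ∫⁻ t, boxk N t * ‖F (x - t • gf b u x)‖ₑ) := by
    intro N
    exact (((measurable_boxk N).comp measurable_snd).mul hFg).lintegral_prod_right'
  have hpt : ∀ x, ‖(∑ l ∈ Finset.range n, Tp w (sc (l0 + l)) F) x‖ₑ ≤
      ‖(∑ l ∈ Finset.range n, Tp (gf b u) (sc (l0 + l)) F) x‖ₑ +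
        ((∫⁻ t, boxk (2 ^ l0) t * ‖F (x - t • gf b u x)‖ₑ) +
          ∫⁻ t, boxk (2 ^ (l0 + n)) t * ‖F (x - t • gf b u x)‖ₑ) := by
    intro x
    rw [Finset.sum_apply, Finset.sum_apply]
    have hΦ : Continuous (fun t : ℝ => F (x - t • gf b u x)) := hF.1.comp (by fun_prop)
    have h1 := pieces_diff (hA9 x) (hA1 x) l0 n hΦ
    unfold Tp
    rw [hwg x]
    simp only [smul_smul]
    simp only [mul_comm (A x)] at h1
    exact h1
  calc sqn (∑ l ∈ Finset.range n, Tp w (sc (l0 + l)) F)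
      ≤ ∫⁻ x, (2 * (‖(∑ l ∈ Finset.range n, Tp (gf b u) (sc (l0 + l)) F) x‖ₑ ^ 2 +
        2 * ((∫⁻ t, boxk (2 ^ l0) t * ‖F (x - t • gf b u x)‖ₑ) ^ 2 +
          (∫⁻ t, boxk (2 ^ (l0 + n)) t * ‖F (x - t • gf b u x)‖ₑ) ^ 2))) := by
        unfold sqn
        refine lintegral_mono fun x => ?_
        refine (pow_le_pow_left' (hpt x) 2).trans ((enn_add_sq _ _).trans ?_)
        gcongr
        exact enn_add_sq _ _
    _ = 2 * (sqn (∑ l ∈ Finset.range n, Tp (gf b u) (sc (l0 + l)) F) +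
        2 * ((∫⁻ x, (∫⁻ t, boxk (2 ^ l0) t * ‖F (x - t • gf b u x)‖ₑ) ^ 2) +
          ∫⁻ x, (∫⁻ t, boxk (2 ^ (l0 + n)) t * ‖F (x - t • gf b u x)‖ₑ) ^ 2)) := by
        have e1 := (hm2 (2 ^ l0)).pow_const 2
        have e2 := (hm2 (2 ^ (l0 + n))).pow_const 2
        have e3 := hm1.enorm.pow_const 2
        rw [lintegral_const_mul' _ _ (by norm_num),
          lintegral_add_left e3, lintegral_const_mul' _ _ (by norm_num), lintegral_add_left e1]
        rfl
    _ ≤ 2 * (ENNReal.ofReal (C ^ 2) * sqn F + 2 * (256 * sqn F + 256 * sqn F)) := by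
        gcongr
    _ = ENNReal.ofReal (2 * C ^ 2 + 2048) * sqn F := by
        rw [ENNReal.ofReal_add (by positivity) (by norm_num), ENNReal.ofReal_mul (by norm_num),
          add_mul]
        have h9 : ENNReal.ofReal 2048 = 2048 := by norm_num
        have h10 : ENNReal.ofReal 2 = 2 := by norm_num
        rw [h9, h10, ← add_mul]
        ring


open Loc in
/-- localisation -/
theorem unifFromB_of_loc {m : ℕ} {D : ℕ → ℝ} (h : UnifLocB m D) :
    UnifFromB m (fun n => 6 * D n) := by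
  intro v hvl hvu l0 n hm F hF
  set C : ℝ := D n with hCdef
  have hd := sc_pos m
  -- the index set
  obtain ⟨ρ, hρ⟩ := hF.2.isCompact.isBounded.subset_closedBall (0 : Plane)
  set N : ℤ := ⌈ρ / sc m⌉ with hN
  have hsupp : ∀ x, F x ≠ 0 → |x 0| ≤ N * sc m ∧ |x 1| ≤ N * sc m := by
    intro x hx
    have h1 : ‖x‖ ≤ ρ := by
      have := hρ (subset_tsupport F hx)
      rwa [Metric.mem_closedBall, dist_zero_right] at this
    have h2 : ρ ≤ N * sc m := by
      rw [← div_le_iff₀ hd]; exact Int.le_ceil _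
    exact ⟨(abs_coord_le x 0).trans (h1.trans h2), (abs_coord_le x 1).trans (h1.trans h2)⟩
  set G : ℤ × ℤ → Plane → ℝ := fun k x => pu (sc m) k x * F x with hG
  have hGcc : ∀ k, CC (G k) := fun k => cc_pu_mul hF
  have hFG : F = ∑ k ∈ ix N, G k := by
    ext x
    rw [Finset.sum_apply]
    simp only [hG]
    rw [← Finset.sum_mul]
    by_cases hx : F x = 0
    · rw [hx, mul_zero]
    · rw [sum_pu hd (hsupp x hx).1 (hsupp x hx).2, one_mul]
  have hT : TT v l0 n F = ∑ k ∈ ix N, TT v l0 n (G k) := by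
    conv_lhs => rw [hFG]
    exact (TT_sum hvl l0 n (ix N) G hGcc).2
  have hmeas : ∀ k, Measurable (TT v l0 n (G k)) := fun k =>
    (cc_sum_Tp hvl hvu (hGcc k) l0 _).1.measurable
  -- pointwise bound
  have hpt : ∀ x, ‖TT v l0 n F x‖ₑ ^ 2 ≤ 36 * ∑ k ∈ ix N, ‖TT v l0 n (G k) x‖ₑ ^ 2 := by
    intro x
    have e1 : TT v l0 n F x = ∑ k ∈ ix N ∩ near (sc m) x, TT v l0 n (G k) x := by
      rw [hT, Finset.sum_apply]
      symm
      apply Finset.sum_subset Finset.inter_subset_left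
      intro k hk1 hk2
      apply TT_pu_eq_zero hvu hm
      intro hk3
      exact hk2 (Finset.mem_inter.mpr ⟨hk1, hk3⟩)
    have e2 : (TT v l0 n F x) ^ 2 ≤ 36 * ∑ k ∈ ix N, (TT v l0 n (G k) x) ^ 2 := by
      rw [e1]
      refine (_root_.sq_sum_le_card_mul_sum_sq).trans ?_
      have hc : ((ix N ∩ near (sc m) x).card : ℝ) ≤ 36 := by
        have := Finset.card_le_card (Finset.inter_subset_right (s₁ := ix N) (s₂ := near (sc m) x))
        rw [card_near] at this
        exact_mod_cast this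
      have hs : ∑ k ∈ ix N ∩ near (sc m) x, (TT v l0 n (G k) x) ^ 2 ≤
          ∑ k ∈ ix N, (TT v l0 n (G k) x) ^ 2 :=
        Finset.sum_le_sum_of_subset_of_nonneg Finset.inter_subset_left
          (fun _ _ _ => sq_nonneg _)
      exact mul_le_mul hc hs (Finset.sum_nonneg fun _ _ => sq_nonneg _) (by norm_num)
    rw [Loc.enorm_sq]
    calc ENNReal.ofReal ((TT v l0 n F x) ^ 2)
        ≤ ENNReal.ofReal (36 * ∑ k ∈ ix N, (TT v l0 n (G k) x) ^ 2) := ENNReal.ofReal_le_ofReal e2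
      _ = 36 * ∑ k ∈ ix N, ‖TT v l0 n (G k) x‖ₑ ^ 2 := by
          rw [ENNReal.ofReal_mul (by norm_num),
            ENNReal.ofReal_sum_of_nonneg (fun _ _ => sq_nonneg _)]
          simp_rw [Loc.enorm_sq]
          norm_num
  -- each piece
  have hpiece : ∀ k, sqn (TT v l0 n (G k)) ≤ ENNReal.ofReal (C ^ 2) * sqn (G k) := by
    intro k
    refine h v hvl hvu l0 n hm !₂[sc m * k.1, sc m * k.2] (G k) (hGcc k) ?_
    intro x hx
    obtain ⟨h1, h2⟩ := pu_supp hd (left_ne_zero_of_mul hx)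
    rw [EuclideanSpace.norm_eq, Fin.sum_univ_two]
    apply Real.sqrt_le_iff.mpr
    refine ⟨by positivity, ?_⟩
    simp only [Real.norm_eq_abs, sq_abs, PiLp.sub_apply]
    simp only [Matrix.cons_val_zero, Matrix.cons_val_one]
    rw [← sq_abs (x 0 - _), ← sq_abs (x 1 - _)]
    nlinarith [abs_nonneg (x 0 - sc m * k.1), abs_nonneg (x 1 - sc m * k.2)]
  have hsumG : ∑ k ∈ ix N, sqn (G k) ≤ sqn F := by
    unfold sqn
    rw [← lintegral_finset_sum]
    · apply lintegral_mono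
      intro x
      simp only [hG]
      simp_rw [enorm_mul, mul_pow]
      rw [← Finset.sum_mul]
      calc (∑ k ∈ ix N, ‖pu (sc m) k x‖ₑ ^ 2) * ‖F x‖ₑ ^ 2
          ≤ 1 * ‖F x‖ₑ ^ 2 := by
            gcongr
            simp_rw [Loc.enorm_sq]
            rw [← ENNReal.ofReal_sum_of_nonneg (fun _ _ => sq_nonneg _)]
            apply ENNReal.ofReal_le_one.mpr
            refine le_trans (Finset.sum_le_sum fun k _ => ?_) (sum_pu_le hd N x)
            have a1 := pu_nonneg (sc m) k x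
            have a2 := pu_le_one (sc m) k x
            nlinarith
        _ = ‖F x‖ₑ ^ 2 := one_mul _
    · intro k _
      exact ((hGcc k).1.measurable.enorm).pow_const 2
  calc sqn (∑ l ∈ Finset.range n, Tp v (sc (l0 + l)) F)
      = ∫⁻ x, ‖TT v l0 n F x‖ₑ ^ 2 := rfl
    _ ≤ ∫⁻ x, 36 * ∑ k ∈ ix N, ‖TT v l0 n (G k) x‖ₑ ^ 2 := lintegral_mono hpt
    _ = 36 * ∑ k ∈ ix N, sqn (TT v l0 n (G k)) := by
        rw [lintegral_const_mul' _ _ (by norm_num), lintegral_finset_sum]
        · rfl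
        · intro k _
          exact ((hmeas k).enorm).pow_const 2
    _ ≤ 36 * ∑ k ∈ ix N, ENNReal.ofReal (C ^ 2) * sqn (G k) := by
        gcongr with k hk
        exact hpiece k
    _ = 36 * ENNReal.ofReal (C ^ 2) * ∑ k ∈ ix N, sqn (G k) := by
        rw [← Finset.mul_sum, mul_assoc]
    _ ≤ 36 * ENNReal.ofReal (C ^ 2) * sqn F := by gcongr
    _ = ENNReal.ofReal ((6 * C) ^ 2) * sqn F := by
        congr 1
        rw [mul_pow, ENNReal.ofReal_mul (by norm_num)]
        norm_num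


open Loc in
/-- **Block F2, localisation.** -/
theorem unifLocB_of_unitGraphB {m : ℕ} (hm6 : 6 ≤ m) {D : ℕ → ℝ} (h : UnitGraphB m D) :
    UnifLocB m D := by
  intro v hvl hvu l0 n hm c F hF hsupp
  have hd := sc_pos m
  have hd1 : sc m ≤ 1 / 64 := sc_le hm6
  set w : Plane → Plane := fun x => v (sqr c (4 * sc m) x) with hw
  have hwl : LipschitzWith 1 w := by
    have := hvl.comp (sqr_lip c (4 * sc m))
    rwa [one_mul] at this
  have hwu : ∀ x, ‖w x‖ = 1 := fun x => hvu _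
  have hwi : ∀ x, 9 / 10 ≤ inner ℝ (w x) (v c) := by
    intro x
    have h1 : ‖w x - v c‖ ≤ 8 * sc m := by
      have h2 := hvl.dist_le_mul (sqr c (4 * sc m) x) c
      rw [dist_eq_norm, dist_eq_norm, NNReal.coe_one, one_mul] at h2
      have h3 := sqr_near c (K := 4 * sc m) (by positivity) x
      exact h2.trans (h3.trans (by linarith))
    have h4 := norm_sub_sq_real (w x) (v c)
    rw [hwu, hvu] at h4
    have h5 : ‖w x - v c‖ ^ 2 ≤ (8 * sc m) ^ 2 := by gcongr
    have h6 : (8 * sc m) ^ 2 ≤ 1 / 64 := by nlinarith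
    linarith
  have hmain := h (v c) (hvu c) w hwl hwu hwi l0 n hm F hF
  have heq : TT v l0 n F = TT w l0 n F := by
    ext x
    by_cases hx : ‖x - c‖ ≤ 4 * sc m
    · have hwx : w x = v x := by rw [hw]; simp only; rw [sqr_eq c hx]
      unfold TT
      rw [Finset.sum_apply, Finset.sum_apply]
      apply Finset.sum_congr rfl
      intro l _
      unfold Tp
      rw [hwx]
    · rw [not_le] at hx
      have hz : ∀ y, ‖x - y‖ ≤ sc m → F y = 0 := by
        intro y hy
        by_contra hne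
        have h1 := hsupp y hne
        have h2 : ‖x - c‖ ≤ ‖x - y‖ + ‖y - c‖ := by
          have e : x - c = (x - y) + (y - c) := by abel
          rw [e]; exact norm_add_le _ _
        linarith
      rw [TT_eq_zero hvu hm hz, TT_eq_zero hwu hm hz]
  change sqn (TT v l0 n F) ≤ _
  rw [heq]
  exact hmain


theorem unifB_of_unifFromB {m : ℕ} {D : ℕ → ℝ} (hD0 : ∀ n, 0 ≤ D n) (hDm : Monotone D)
    (h : UnifFromB m D) : UnifFromB 6 (fun n => 2 * (16 * 2 ^ m + D n)) := by
  intro v hvl hvu l0 n hl0 F hF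
  have key : ∀ k : ℕ, ∀ n : ℕ, ∀ l0 : ℕ, 6 ≤ l0 → k ≤ n → (m ≤ l0 + k ∨ k = n) → k ≤ m →
      sqn (∑ l ∈ Finset.range n, Tp v (sc (l0 + l)) F) ≤
        ENNReal.ofReal ((2 * (16 * 2 ^ m + D n)) ^ 2) * sqn F := by
    intro k n l0 hl0 hkn hk hkm
    set C : ℝ := D n with hCdef
    have hC0 : 0 ≤ C := hD0 n
    have e1 : ∑ l ∈ Finset.range n, Tp v (sc (l0 + l)) F =
        ∑ l ∈ Finset.range k, Tp v (sc (l0 + l)) F +
          ∑ l ∈ Finset.range (n - k), Tp v (sc (l0 + k + l)) F := by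
      have h1 := Finset.sum_range_add (fun l => Tp v (sc (l0 + l)) F) k (n - k)
      rw [Nat.add_sub_cancel' hkn] at h1
      rw [h1]
      congr 1
      apply Finset.sum_congr rfl
      intro l _
      rw [add_assoc]
    rw [e1]
    refine (sqn_add_le' (cc_sum_Tp hvl hvu hF l0 _).1.measurable).trans ?_
    have h2 := sqn_few hvl hvu hF hl0 k
    have h3 : sqn (∑ l ∈ Finset.range (n - k), Tp v (sc (l0 + k + l)) F) ≤
        ENNReal.ofReal (C ^ 2) * sqn F := by
      rcases hk with hk | hk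
      · refine (h v hvl hvu (l0 + k) (n - k) hk F hF).trans ?_
        gcongr
        · exact hD0 _
        · exact hDm (Nat.sub_le n k)
      · rw [hk, Nat.sub_self, Finset.sum_range_zero, sqn_zero']
        exact bot_le
    calc 2 * sqn (∑ l ∈ Finset.range k, Tp v (sc (l0 + l)) F) +
          2 * sqn (∑ l ∈ Finset.range (n - k), Tp v (sc (l0 + k + l)) F)
        ≤ 2 * (ENNReal.ofReal ((16 * 2 ^ k) ^ 2) * sqn F) +
            2 * (ENNReal.ofReal (C ^ 2) * sqn F) := by gcongr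
      _ = ENNReal.ofReal (2 * (16 * 2 ^ k) ^ 2 + 2 * C ^ 2) * sqn F := by
          rw [ENNReal.ofReal_add (by positivity) (by positivity),
            ENNReal.ofReal_mul zero_le_two, ENNReal.ofReal_mul (p := 2) zero_le_two]
          have h5 : (2 : ℝ≥0∞) = ENNReal.ofReal 2 := by simp
          rw [← h5]
          ring
      _ ≤ ENNReal.ofReal ((2 * (16 * 2 ^ m + C)) ^ 2) * sqn F := by
          gcongr
          have h6 : (2 : ℝ) ^ k ≤ 2 ^ m := pow_le_pow_right₀ (by norm_num) hkm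
          have h7 : (0 : ℝ) < 2 ^ k := by positivity
          have h9 : (2:ℝ) ^ k * 2 ^ k ≤ 2 ^ m * 2 ^ m := by gcongr
          nlinarith [mul_nonneg (by positivity : (0:ℝ) ≤ 2 ^ m) hC0, mul_self_nonneg C]
  by_cases hc : m ≤ l0
  · exact key 0 n l0 hl0 (Nat.zero_le _) (Or.inl (by omega)) (Nat.zero_le _)
  · by_cases hn : n ≤ m - l0
    · exact key n n l0 hl0 le_rfl (Or.inr rfl) (by omega)
    · exact key (m - l0) n l0 hl0 (by omega) (Or.inl (by omega)) (by omega)


lemma UnitGraphB.mono {m m' : ℕ} (hm : m ≤ m') {B : ℕ → ℝ} (h : UnitGraphB m B) :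
    UnitGraphB m' B :=
  fun e he w hwl hwu hwi l0 n hl0 F hF => h e he w hwl hwu hwi l0 n (hm.trans hl0) F hF

/-- From the graph bound with constant `B n` to the bound for all unit fields. -/
theorem unif_of_graphB {ε₀ : ℝ≥0} (hε : 0 < ε₀) {B : ℕ → ℝ} (hB : ∀ n, 0 ≤ B n) (hm : Monotone B)
    (h : GraphBoundB ε₀ B) :
    ∃ K : ℝ, 0 ≤ K ∧ UnifFromB 6 (fun n => 2 * (K + 6 * √(2 * B n ^ 2 + 2048))) := by
  obtain ⟨m, h1⟩ := unitGraphB_of_graphBoundB hε h
  have h2 := unifFromB_of_loc (unifLocB_of_unitGraphB (le_max_right m 6) (h1.mono (le_max_left m 6)))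
  refine ⟨16 * 2 ^ (max m 6), by positivity, ?_⟩
  refine unifB_of_unifFromB (fun n => by positivity) ?_ h2
  intro a b hab
  have h3 := hm hab
  have h4 := hB a
  show 6 * √(2 * B a ^ 2 + 2048) ≤ 6 * √(2 * B b ^ 2 + 2048)
  gcongr

end Vale.Agent.P112.H587.LL
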