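import Vale.Agent.P112.H587.LL.Plane

set_option linter.all false

/-! P112, fallback [LL], (LL3) part 2: the sharp truncations `ε < |t| < a`. -/

attribute [local instance] Vale.Agent.P112.SC.i0 Vale.Agent.P112.SC.i1 Vale.Agent.P112.SC.i2
  Vale.Agent.P112.SC.i3 Vale.Agent.P112.SC.i4 Vale.Agent.P112.SC.i5 Vale.Agent.P112.SC.i6
  Vale.Agent.P112.SC.i7

namespace Vale.Agent.P112.H587.LL

open MeasureTheory Filter Topology Set Vale.Agent.P112
open scoped ENNReal NNReal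

/-- `l0` is the level of the length `a`. -/
def Lev (l0 : ℕ) (a : ℝ) : Prop :=
  6 ≤ l0 ∧ ((a ≤ 1 / 64 ∧ (1/2 : ℝ) ^ (l0 + 1) < a ∧ a ≤ (1/2) ^ l0) ∨ (1 / 64 < a ∧ l0 = 6))

lemma exists_lev {a : ℝ} (ha : 0 < a) (ha1 : a ≤ 1) : ∃ l0, Lev l0 a := by
  by_cases hcase : a ≤ 1 / 64
  · obtain ⟨n, hn1, hn2⟩ := exists_nat_pow_near_of_lt_one ha (ha1) (by norm_num : (0:ℝ) < 1/2)
      (by norm_num : (1/2 : ℝ) < 1)
    have hn6 : 6 ≤ n := by
      by_contra hcon
      push Not at hcon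
      have h1 : (1/2 : ℝ) ^ 6 ≤ (1/2) ^ (n + 1) :=
        pow_le_pow_of_le_one (by norm_num) (by norm_num) (by omega)
      norm_num at h1 hn1 hcase
      linarith only [h1, hn1, hcase]
    exact ⟨n, hn6, Or.inl ⟨hcase, hn1, hn2⟩⟩
  · push Not at hcase
    exact ⟨6, le_rfl, Or.inr ⟨hcase, rfl⟩⟩

lemma lev_mono {l0 l1 : ℕ} {ε a : ℝ} (h0 : Lev l0 a) (h1 : Lev l1 ε) (h : ε < a) : l0 ≤ l1 := by
  obtain ⟨h06, h0⟩ := h0
  obtain ⟨h16, h1⟩ := h1
  rcases h0 with ⟨g1, g2, g3⟩ | ⟨g1, rfl⟩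
  · rcases h1 with ⟨k1, k2, k3⟩ | ⟨k1, rfl⟩
    · by_contra hcon
      have h2 : (1/2 : ℝ) ^ l0 ≤ (1/2) ^ (l1 + 1) :=
        pow_le_pow_of_le_one (by norm_num) (by norm_num) (by omega)
      linarith
    · linarith
  · exact h16

lemma lev_num {l0 l1 : ℕ} {ε a : ℝ} (hε : 0 < ε) (h0 : Lev l0 a) (h1 : Lev l1 ε) (hε1 : ε ≤ 1)
    (h : ε < a) : (2 : ℝ) ^ (l1 - l0) ≤ 128 * (a / ε) := by
  have hle := lev_mono h0 h1 h
  obtain ⟨h06, h0⟩ := h0
  obtain ⟨h16, h1⟩ := h1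
  have e0 : (1/2 : ℝ) ^ l0 ≤ 2 * a := by
    rcases h0 with ⟨g1, g2, g3⟩ | ⟨g1, rfl⟩
    · rw [pow_succ] at g2; linarith
    · norm_num; linarith
  have e1 : ε ≤ 64 * (1/2 : ℝ) ^ l1 := by
    rcases h1 with ⟨g1, g2, g3⟩ | ⟨g1, rfl⟩
    · have : (0 : ℝ) < (1/2) ^ l1 := by positivity
      linarith
    · norm_num; linarith
  have e2 : (2 : ℝ) ^ (l1 - l0) * (1/2) ^ l1 = (1/2) ^ l0 := by
    obtain ⟨k, rfl⟩ := Nat.exists_eq_add_of_le hle
    rw [Nat.add_sub_cancel_left, pow_add, ← mul_assoc, mul_comm ((2 : ℝ) ^ k), mul_assoc, ← mul_pow]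
    norm_num
  rw [mul_div_assoc', le_div_iff₀ hε]
  have h2 : (0 : ℝ) < 2 ^ (l1 - l0) := by positivity
  calc (2 : ℝ) ^ (l1 - l0) * ε ≤ 2 ^ (l1 - l0) * (64 * (1/2 : ℝ) ^ l1) := by gcongr
    _ = 64 * (2 ^ (l1 - l0) * (1/2 : ℝ) ^ l1) := by ring
    _ ≤ 128 * a := by rw [e2]; linarith

theorem tail_lev : ∃ C : ℝ, 0 < C ∧ ∀ a : ℝ, 0 < a → a ≤ 1 → ∀ l0 : ℕ, Lev l0 a →
    ∀ v : Plane → Plane, LipschitzWith 1 v → (∀ x, ‖v x‖ = 1) → ∀ F : Plane → ℝ, Measurable F →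
    sqn (fun x => ∫ t : ℝ, tailw l0 a t * F (x - t • v x)) ≤ ENNReal.ofReal (C ^ 2) * sqn F := by
  set J := ∫⁻ t in Ioo (-1 : ℝ) 1, (tailq t)⁻¹ with hJ
  have hJf : J ≠ ⊤ := tail_mass_finite.ne
  set C : ℝ := 128 * J.toReal + 16 with hC
  have hJ0 : 0 ≤ J.toReal := ENNReal.toReal_nonneg
  have key : ∀ a : ℝ, 0 < a → a ≤ 1 → ∀ l0 : ℕ, Lev l0 a → (∀ t, 1 ≤ |t| → tailw l0 a t = 0) ∧
      ∫⁻ t, ‖tailw l0 a t‖ₑ * (tailq t)⁻¹ ≤ ENNReal.ofReal C := by
    rintro a ha ha1 n ⟨hn6, ⟨hcase, hn1, hn2⟩ | ⟨hcase, rfl⟩⟩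
    ·
      have e1 : (2 : ℝ) ^ n * (1/2) ^ n = 1 := by rw [← mul_pow]; norm_num
      have e2 : (2 : ℝ) ^ (n + 1) * (1/2) ^ (n + 1) = 1 := by rw [← mul_pow]; norm_num
      have hp1 : (0:ℝ) < 2 ^ n := by positivity
      have hp2 : (0:ℝ) < 2 ^ (n + 1) := by positivity
      have hq : (1/2 : ℝ) ^ n ≤ 1 / 64 := by
        calc (1/2 : ℝ) ^ n ≤ (1/2) ^ 6 := pow_le_pow_of_le_one (by norm_num) (by norm_num) hn6
          _ = 1 / 64 := by norm_num
      have hout : ∀ t, (1/2 : ℝ) ^ n ≤ |t| → tailw n a t = 0 := by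
        intro t ht
        apply tailw_zero_out _ (hn2.trans ht)
        calc (1:ℝ) = 2 ^ n * (1/2) ^ n := e1.symm
          _ ≤ 2 ^ n * |t| := by (clear * - ht; gcongr)
      have hB : ∀ t, |tailw n a t| ≤ 2 ^ (n + 1) := by
        intro t
        apply tailw_le hp2.le
        intro h0
        by_contra hcon
        push Not at hcon
        apply h0
        apply tailw_zero_in hcon.le
        have : |t| < (1/2) ^ (n + 1) := by
          have : 2 ^ (n + 1) * |t| < 2 ^ (n + 1) * (1/2) ^ (n + 1) := by rw [e2]; exact hcon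
          exact lt_of_mul_lt_mul_left this hp2.le
        linarith only [hn1, this]
      refine ⟨fun t ht => hout t (by linarith only [hq, ht]), ?_⟩
      have h1 : ∀ t, ‖tailw n a t‖ₑ * (tailq t)⁻¹ ≤ ‖tailw n a t‖ₑ * 2 := by
        intro t
        by_cases ht : (1/2 : ℝ) ^ n ≤ |t|
        · rw [hout t ht]; simp
        · push Not at ht
          gcongr
          rw [ENNReal.inv_le_iff_inv_le]
          unfold tailq
          have : (1/2 : ℝ) ≤ √(1 - |t|) := by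
            apply Real.le_sqrt_of_sq_le
            linarith only [hq, ht]
          calc (2 : ℝ≥0∞)⁻¹ = ENNReal.ofReal (1/2) := by
                rw [one_div, ENNReal.ofReal_inv_of_pos (by norm_num)]; norm_num
            _ ≤ ENNReal.ofReal (√(1 - |t|)) := ENNReal.ofReal_le_ofReal this
      have h2 := lintegral_le_of_supp (f := tailw n a) (a := (1/2) ^ n) hp2.le hB
        (fun t ht => hout t ht.le)
      calc ∫⁻ t, ‖tailw n a t‖ₑ * (tailq t)⁻¹ ≤ ∫⁻ t, ‖tailw n a t‖ₑ * 2 := lintegral_mono h1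
        _ = (∫⁻ t, ‖tailw n a t‖ₑ) * 2 := lintegral_mul_const _ (tailw_measurable n a).enorm
        _ ≤ ENNReal.ofReal (2 ^ (n + 1) * (2 * (1/2) ^ n)) * 2 := by (clear * - h2; gcongr)
        _ = ENNReal.ofReal (2 ^ (n + 1) * (2 * (1/2) ^ n)) * ENNReal.ofReal 2 := by norm_num
        _ = ENNReal.ofReal (2 ^ (n + 1) * (2 * (1/2) ^ n) * 2) :=
            (ENNReal.ofReal_mul (by positivity)).symm
        _ ≤ ENNReal.ofReal C := by
            apply ENNReal.ofReal_le_ofReal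
            have : (2 : ℝ) ^ (n + 1) * (2 * (1/2) ^ n) * 2 = 8 := by
              rw [pow_succ]
              linear_combination 8 * e1
            rw [this]; linarith only [hJ0]
    · refine ⟨fun t ht => tailw_zero_out (by norm_num; linarith only [ht]) (by linarith only [ha1, ht]), ?_⟩
      have hB : ∀ t, |tailw 6 a t| ≤ 128 := by
        intro t
        apply tailw_le (by norm_num)
        intro h0
        by_contra hcon
        push Not at hcon
        apply h0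
        apply tailw_zero_in
        · norm_num; exact hcon.le
        · linarith only [hcase, hcon]
      have h1 : ∀ t, ‖tailw 6 a t‖ₑ * (tailq t)⁻¹ ≤
          (Ioo (-1 : ℝ) 1).indicator (fun t => 128 * (tailq t)⁻¹) t := by
        intro t
        by_cases ht : |t| < 1
        · rw [indicator_of_mem (by exact abs_lt.mp ht)]
          gcongr
          rw [Real.enorm_eq_ofReal_abs]
          calc ENNReal.ofReal |tailw 6 a t| ≤ ENNReal.ofReal 128 :=
                ENNReal.ofReal_le_ofReal (hB t)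
            _ = 128 := by norm_num
        · have : tailw 6 a t = 0 :=
            tailw_zero_out (by norm_num; linarith only [ht]) (by linarith only [ha1, ht])
          rw [this]; simp only [enorm_zero, zero_mul, zero_le]
      calc ∫⁻ t, ‖tailw 6 a t‖ₑ * (tailq t)⁻¹
          ≤ ∫⁻ t, (Ioo (-1 : ℝ) 1).indicator (fun t => 128 * (tailq t)⁻¹) t := lintegral_mono h1
        _ = ∫⁻ t in Ioo (-1 : ℝ) 1, 128 * (tailq t)⁻¹ := lintegral_indicator measurableSet_Ioo _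
        _ = 128 * J := lintegral_const_mul _ measurable_tailq.inv
        _ = ENNReal.ofReal (128 * J.toReal) := by
            rw [ENNReal.ofReal_mul (by norm_num), ENNReal.ofReal_toReal hJf]; norm_num
        _ ≤ ENNReal.ofReal C := ENNReal.ofReal_le_ofReal (by linarith only [])
  refine ⟨C, by (clear * -; positivity), fun a ha ha1 l0 hl0 => ?_⟩
  obtain ⟨hs, hm⟩ := key a ha ha1 l0 hl0
  intro v hvl hvu F hF
  refine (tail_sqn hvl hvu (tailw l0 a) (tailw_measurable l0 a) hs F hF).trans ?_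
  rw [ENNReal.ofReal_pow (by positivity)]
  (clear * - hm; gcongr)


/-- The truncated transform is the difference of two principal values. -/
lemma trunc_eq_sub {f : Plane → ℂ} {K : NNReal} (hf : LipschitzWith K f) (v : Plane → Plane)
    (hv : ∀ x, ‖v x‖ = 1) (x : Plane) {ε a : ℝ} (hε : 0 < ε) (h : ε < a) :
    truncHilbert v ε a f x = pvInt v a f x - pvInt v ε f x := by
  rw [trunc_eq_symm hf.continuous v x hε]
  unfold pvInt
  have hsub : {t : ℝ | |t| < ε} ⊆ {t : ℝ | |t| < a} := fun t ht => lt_trans ht h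
  rw [← setIntegral_sdiff (measurableSet_ball0 ε) (integrableOn_symm hf x (v x) (hv x) a) hsub]
  refine setIntegral_congr_set ?_
  have hnull : ∀ᵐ t : ℝ, t ≠ ε ∧ t ≠ -ε := by
    filter_upwards [Measure.ae_ne volume ε, Measure.ae_ne volume (-ε)] with t h1 h2
    exact ⟨h1, h2⟩
  filter_upwards [hnull] with t ht
  have : (t ∈ {t : ℝ | ε < |t| ∧ |t| < a}) = (t ∈ {t : ℝ | |t| < a} \ {t : ℝ | |t| < ε}) := by
    have h3 : |t| ≠ ε := by
      intro h4
      rcases abs_eq hε.le |>.1 h4 with h5 | h5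
      · exact ht.1 h5
      · exact ht.2 h5
    apply propext
    simp only [mem_diff, Set.mem_ofPred_eq, not_lt]
    constructor
    · rintro ⟨h1, h2⟩; exact ⟨h2, h1.le⟩
    · rintro ⟨h1, h2⟩; exact ⟨lt_of_le_of_ne h2 (Ne.symm h3), h1⟩
  exact this

/-- difference of the limits -/
lemma lim_sub {T : ℕ → ℝ} {l0 n : ℕ} {A A' P P' : ℝ}
    (h1 : Tendsto (fun N : ℕ => (∑ l ∈ Finset.range N, T (l0 + l)) + A) atTop (𝓝 P))
    (h2 : Tendsto (fun N : ℕ => (∑ l ∈ Finset.range N, T (l0 + n + l)) + A') atTop (𝓝 P')) :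
    P - P' = (∑ l ∈ Finset.range n, T (l0 + l)) + (A - A') := by
  have h3 := (h1.comp (tendsto_add_atTop_nat n)).sub h2
  refine tendsto_nhds_unique h3 ?_
  refine tendsto_const_nhds.congr fun N => ?_
  simp only [Function.comp]
  rw [add_comm N n, Finset.sum_range_add]
  simp only [add_assoc]
  ring

lemma sqn_three {U A A' : Plane → ℝ} (hU : Measurable U) (hA : Measurable A) (hA' : Measurable A') :
    sqn (fun x => U x + (A x - A' x)) ≤ 2 * sqn U + 4 * sqn A + 4 * sqn A' := by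
  have h1 := final_sqn_add (F := U) (G := fun x => A x - A' x) hU
  have h2 := final_sqn_add (F := A) (G := fun x => - A' x) hA
  have h3 : sqn (fun x => - A' x) = sqn A' := by unfold sqn; simp
  rw [h3] at h2
  simp only [← sub_eq_add_neg] at h2
  refine h1.trans ?_
  calc 2 * sqn U + 2 * sqn (fun x => A x - A' x) ≤ 2 * sqn U + 2 * (2 * sqn A + 2 * sqn A') := by
        gcongr
    _ = 2 * sqn U + 4 * sqn A + 4 * sqn A' := by ring

/-- one real part of the truncated transform -/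
lemma trunc_part {v : Plane → Plane} (hvl : LipschitzWith 1 v) (hvu : ∀ x, ‖v x‖ = 1) {l0 n : ℕ}
    (hl0 : 6 ≤ l0) {C₁ C₂ : ℝ} {a ε : ℝ}
    (h1 : ∀ F, CC F → sqn (∑ l ∈ Finset.range n, Tp v (sc (l0 + l)) F) ≤
      ENNReal.ofReal (C₁ ^ 2) * sqn F)
    (h2 : ∀ F : Plane → ℝ, Measurable F →
      sqn (fun x => ∫ t : ℝ, tailw l0 a t * F (x - t • v x)) ≤ ENNReal.ofReal (C₂ ^ 2) * sqn F)
    (h2' : ∀ F : Plane → ℝ, Measurable F →
      sqn (fun x => ∫ t : ℝ, tailw (l0 + n) ε t * F (x - t • v x)) ≤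
        ENNReal.ofReal (C₂ ^ 2) * sqn F)
    {g G P P' : Plane → ℝ} (hg : Continuous g) (hG : ∀ x, G x = P x - P' x)
    (hlim : ∀ x, Tendsto (fun n : ℕ => (∑ l ∈ Finset.range n, Tp v (sc (l0 + l)) g) x +
      ∫ t : ℝ, tailw l0 a t * g (x - t • v x)) atTop (𝓝 (P x)))
    (hlim' : ∀ x, Tendsto (fun m : ℕ => (∑ l ∈ Finset.range m, Tp v (sc (l0 + n + l)) g) x +
      ∫ t : ℝ, tailw (l0 + n) ε t * g (x - t • v x)) atTop (𝓝 (P' x))) :
    Measurable G ∧ sqn G ≤ ENNReal.ofReal (2 * C₁ ^ 2 + 8 * C₂ ^ 2) * sqn g := by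
  have hm1 : Measurable (∑ l ∈ Finset.range n, Tp v (sc (l0 + l)) g) :=
    final_measurable_sum hvl.continuous hg l0 n
  have hm2 : Measurable fun x => ∫ t : ℝ, tailw l0 a t * g (x - t • v x) :=
    final_measurable_avg hvl.continuous (final_measurable_tailw l0 a) hg
  have hm3 : Measurable fun x => ∫ t : ℝ, tailw (l0 + n) ε t * g (x - t • v x) :=
    final_measurable_avg hvl.continuous (final_measurable_tailw (l0 + n) ε) hg
  have hGe : G = fun x => (∑ l ∈ Finset.range n, Tp v (sc (l0 + l)) g) x +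
      ((∫ t : ℝ, tailw l0 a t * g (x - t • v x)) -
        ∫ t : ℝ, tailw (l0 + n) ε t * g (x - t • v x)) := by
    funext x
    rw [hG x]
    have e1 := hlim x
    have e2 := hlim' x
    simp only [Finset.sum_apply] at e1 e2 ⊢
    exact lim_sub (T := fun l => Tp v (sc l) g x) e1 e2
  refine ⟨?_, ?_⟩
  · rw [hGe]; exact hm1.add (hm2.sub hm3)
  · rw [hGe]
    refine (sqn_three hm1 hm2 hm3).trans ?_
    have h3 : sqn (∑ l ∈ Finset.range n, Tp v (sc (l0 + l)) g) ≤ ENNReal.ofReal (C₁ ^ 2) * sqn g :=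
      sqn_ext hvl hvu hl0 (C₁ ^ 2).toNNReal h1 g hg
    have h4 := h2 g hg.measurable
    have h5 := h2' g hg.measurable
    have e2 : (2 : ℝ≥0∞) = ENNReal.ofReal 2 := by simp
    have e4 : (4 : ℝ≥0∞) = ENNReal.ofReal 4 := by norm_num
    calc 2 * sqn (∑ l ∈ Finset.range n, Tp v (sc (l0 + l)) g) +
          4 * sqn (fun x => ∫ t : ℝ, tailw l0 a t * g (x - t • v x)) +
          4 * sqn (fun x => ∫ t : ℝ, tailw (l0 + n) ε t * g (x - t • v x))
        ≤ 2 * (ENNReal.ofReal (C₁ ^ 2) * sqn g) + 4 * (ENNReal.ofReal (C₂ ^ 2) * sqn g) +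
          4 * (ENNReal.ofReal (C₂ ^ 2) * sqn g) := by gcongr
      _ = ENNReal.ofReal (2 * C₁ ^ 2 + 8 * C₂ ^ 2) * sqn g := by
          rw [ENNReal.ofReal_add (by positivity) (by positivity), ENNReal.ofReal_mul (by norm_num),
            ENNReal.ofReal_mul (p := 8) (by norm_num)]
          have e8 : ENNReal.ofReal 8 = 4 + 4 := by norm_num
          rw [← e2, e8]
          ring

/-- **(LL3).** The sharp truncations, from the bound for `n` pieces. -/
theorem trunc_of_unifB {B : ℕ → ℝ} (h : UnifFromB 6 B) : ∃ C : ℝ, 0 < C ∧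
    ∀ ε a : ℝ, 0 < ε → ε < a → a ≤ 1 → ∃ n : ℕ, (2 : ℝ) ^ n ≤ 128 * (a / ε) ∧
      ∀ v : Plane → Plane, LipschitzWith 1 v → (∀ x, ‖v x‖ = 1) → ∀ f : SchwartzMap Plane ℂ,
        ∫⁻ x, ‖truncHilbert v ε a f x‖ₑ ^ 2 ≤
          ENNReal.ofReal ((2 * B n ^ 2 + C) * ∫ x, ‖f x‖ ^ 2) := by
  obtain ⟨C₂, hC₂, h2⟩ := tail_lev
  refine ⟨8 * C₂ ^ 2, by positivity, ?_⟩
  intro ε a hε hεa ha1
  have ha : 0 < a := hε.trans hεa
  have hε1 : ε ≤ 1 := hεa.le.trans ha1
  obtain ⟨l0, hl0⟩ := exists_lev ha ha1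
  obtain ⟨l1, hl1⟩ := exists_lev hε hε1
  have hle := lev_mono hl0 hl1 hεa
  refine ⟨l1 - l0, lev_num hε hl0 hl1 hε1 hεa, ?_⟩
  obtain ⟨n, rfl⟩ := Nat.exists_eq_add_of_le hle
  rw [Nat.add_sub_cancel_left]
  intro v hvl hvu f
  obtain ⟨Kf, hf⟩ := schwartz_lipschitz f
  have hb : ∀ F, CC F → sqn (∑ l ∈ Finset.range n, Tp v (sc (l0 + l)) F) ≤
      ENNReal.ofReal (B n ^ 2) * sqn F := fun F hF => h v hvl hvu l0 n hl0.1 F hF
  have hre := trunc_part hvl hvu hl0.1 hb (h2 a ha ha1 l0 hl0 v hvl hvu)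
    (h2 ε hε hε1 (l0 + n) hl1 v hvl hvu)
    (g := fun y => (f y).re) (G := fun x => (truncHilbert v ε a f x).re)
    (P := fun x => (pvInt v a f x).re) (P' := fun x => (pvInt v ε f x).re)
    (Complex.continuous_re.comp hf.continuous)
    (fun x => by rw [trunc_eq_sub hf v hvu x hε hεa, Complex.sub_re])
    (fun x => tendsto_re hf hvu x ha l0) (fun x => tendsto_re hf hvu x hε (l0 + n))
  have him := trunc_part hvl hvu hl0.1 hb (h2 a ha ha1 l0 hl0 v hvl hvu)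
    (h2 ε hε hε1 (l0 + n) hl1 v hvl hvu)
    (g := fun y => (f y).im) (G := fun x => (truncHilbert v ε a f x).im)
    (P := fun x => (pvInt v a f x).im) (P' := fun x => (pvInt v ε f x).im)
    (Complex.continuous_im.comp hf.continuous)
    (fun x => by rw [trunc_eq_sub hf v hvu x hε hεa, Complex.sub_im])
    (fun x => tendsto_im hf hvu x ha l0) (fun x => tendsto_im hf hvu x hε (l0 + n))
  have hmre : Measurable fun y => (f y).re :=
    (Complex.continuous_re.comp hf.continuous).measurable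
  set D : ℝ := 2 * B n ^ 2 + 8 * C₂ ^ 2 with hD
  have hD0 : 0 ≤ D := by positivity
  calc ∫⁻ x, ‖truncHilbert v ε a f x‖ₑ ^ 2
      = ∫⁻ x, (‖(truncHilbert v ε a f x).re‖ₑ ^ 2 + ‖(truncHilbert v ε a f x).im‖ₑ ^ 2) :=
        lintegral_congr fun x => final_normsq _
    _ = sqn (fun x => (truncHilbert v ε a f x).re) + sqn (fun x => (truncHilbert v ε a f x).im) := by
        exact lintegral_add_left (hre.1.enorm.pow_const 2) _
    _ ≤ ENNReal.ofReal D * sqn (fun y => (f y).re) +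
        ENNReal.ofReal D * sqn (fun y => (f y).im) := add_le_add hre.2 him.2
    _ = ENNReal.ofReal D * ∫⁻ x, ‖f x‖ₑ ^ 2 := by
        rw [← mul_add]
        congr 1
        have : ∫⁻ x, ‖f x‖ₑ ^ 2 = ∫⁻ x, (‖(f x).re‖ₑ ^ 2 + ‖(f x).im‖ₑ ^ 2) :=
          lintegral_congr fun x => final_normsq _
        rw [this]
        exact (lintegral_add_left (hmre.enorm.pow_const 2) _).symm
    _ = ENNReal.ofReal (D * ∫ x, ‖f x‖ ^ 2) := by
        rw [final_lintegral_sq, ← ENNReal.ofReal_mul hD0]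

end Vale.Agent.P112.H587.LL
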